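import Crest.Agent.N111.E.Api

/-! # Row 111: the intertwiner lines and the one parameter group of the lift (fill the proofs IN PLACE). -/

set_option autoImplicit false
set_option linter.unusedSectionVars false
set_option linter.unusedVariables false

namespace Crest.Agent.N111

open MeasureTheory Topology Filter Matrix
open scoped InnerProductSpace

variable {K : Type} [NormedAddCommGroup K] [InnerProductSpace ℂ K] [CompleteSpace K]

namespace IntAux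

theorem cz_zero (g : G) : cz g 0 = fun _ => 1 := funext fun a => by simp [cz]

theorem cz_add (g : G) (s t : ℝ) : cz g (s + t) = fun a => cz g s a * cz g t a :=
  funext fun a => by rw [cz, cz, cz, add_mul, ex_add]

theorem cz_neg (g : G) (t : ℝ) : (fun a => (starRingEnd ℂ) (cz g t a)) = cz g (-t) :=
  funext fun a => by rw [cz, cz, conj_ex, neg_mul]

theorem entry_of_ev0 {q : G} {z : ℝ} (hq : ac q (ev 0) = z • ev 0) :
    q 0 0 = z ∧ q 1 0 = 0 ∧ q 2 0 = 0 :=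
  ⟨by simpa [ac_ev, ev] using (ac_ev q 0 0).symm.trans (congrFun hq 0),
    by simpa [ac_ev, ev] using (ac_ev q 0 1).symm.trans (congrFun hq 1),
    by simpa [ac_ev, ev] using (ac_ev q 0 2).symm.trans (congrFun hq 2)⟩

theorem ne_zero_of_ev0 {q : G} {z : ℝ} (hq : ac q (ev 0) = z • ev 0) : z ≠ 0 := by
  rintro rfl
  exact ac_ne_zero q (ev_ne_zero 0) (by rw [hq, zero_smul])

theorem tv_mul_par {q : G} {z : ℝ} (hq : ac q (ev 0) = z • ev 0) {k : Fin 3} (h : (0 : Fin 3) ≠ k)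
    (b : ℝ) : tv h b * q = q * tv (show (0 : Fin 3) ≠ 1 by decide) (b * q k 1 / z)
      * tv (show (0 : Fin 3) ≠ 2 by decide) (b * q k 2 / z) := by
  obtain ⟨h0, h1, h2⟩ := entry_of_ev0 hq
  have hz := ne_zero_of_ev0 hq
  have hk : q k 0 = 0 := by fin_cases k <;> simp_all
  ext p l
  simp only [mul_tv_apply, tv_mul_apply]
  fin_cases p <;> fin_cases l <;> simp [h0, h1, h2, hk, hz]

theorem scalar_eq {T : K →L[ℂ] K} {c : ℂ} {ξ : K} (hξ : ξ ≠ 0) (h : star T * T = c • 1) :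
    c = ((‖T‖ ^ 2 : ℝ) : ℂ) := by
  have : Nontrivial K := ⟨⟨ξ, 0, hξ⟩⟩
  have h1 : ‖c‖ = ‖T‖ ^ 2 := by
    rw [sq, ← CStarRing.norm_star_mul_self, h, norm_smul, norm_one, mul_one]
  have h2 : c * ((‖ξ‖ ^ 2 : ℝ) : ℂ) = ((‖T ξ‖ ^ 2 : ℝ) : ℂ) := by
    have h3 : ⟪ξ, (star T * T) ξ⟫_ℂ = ⟪T ξ, T ξ⟫_ℂ := by
      rw [mul_apply_eq_comp, ContinuousLinearMap.star_eq_adjoint,
        ContinuousLinearMap.adjoint_inner_right]
    rw [h, _root_.smul_apply, one_apply_eq_self, inner_smul_right, inner_self_eq_norm_sq_to_K,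
      inner_self_eq_norm_sq_to_K] at h3
    push_cast
    exact h3
  have h4 : (0 : ℝ) < ‖ξ‖ ^ 2 := by have := norm_pos_iff.2 hξ; positivity
  have h5 : c = ((‖T ξ‖ ^ 2 / ‖ξ‖ ^ 2 : ℝ) : ℂ) := by
    rw [Complex.ofReal_div, eq_div_iff (by exact_mod_cast h4.ne'), h2]
  rw [← h1, h5, Complex.norm_real, Real.norm_of_nonneg (by positivity)]

omit [CompleteSpace K] in
theorem norm_le_of_wtends {α : Type*} {l : Filter α} [l.NeBot] {T : α → K →L[ℂ] K}
    {T₀ : K →L[ℂ] K} (h : WTends l T T₀) {ξ : K} {C : ℝ} (hC : ∀ᶠ a in l, ‖T a ξ‖ ≤ C) :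
    ‖T₀ ξ‖ ≤ C := by
  have hC0 : 0 ≤ C := by obtain ⟨a, ha⟩ := hC.exists; exact (norm_nonneg _).trans ha
  have h1 : ‖⟪T₀ ξ, T₀ ξ⟫_ℂ‖ ≤ ‖T₀ ξ‖ * C :=
    le_of_tendsto (h (T₀ ξ) ξ).norm (hC.mono fun a ha =>
      (norm_inner_le_norm _ _).trans (by gcongr))
  rw [inner_self_eq_norm_sq_to_K, norm_pow, RCLike.norm_ofReal, abs_norm, sq] at h1
  rcases (norm_nonneg (T₀ ξ)).eq_or_lt with h0 | h0
  · rwa [← h0]
  · exact le_of_mul_le_mul_left h1 h0

omit [CompleteSpace K] in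
theorem wtends_sub {α : Type*} {l : Filter α} {S T : α → K →L[ℂ] K} {S₀ T₀ : K →L[ℂ] K}
    (hS : WTends l S S₀) (hT : WTends l T T₀) : WTends l (fun a => S a - T a) (S₀ - T₀) :=
  fun w v => by simpa only [_root_.sub_apply, inner_sub_right] using (hS w v).sub (hT w v)

theorem ex_inj {l l' : ℝ} (h : ∀ t, ex (l * t) = ex (l' * t)) : l = l' := by
  refine sub_eq_zero.1 (eq_zero_of_ex_div fun q => ?_)
  have e : (l - l') / (q + 1) = l * (1 / (q + 1)) + -(l' * (1 / (q + 1))) := by ring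
  rw [e, ex_add, h, ← ex_add, add_neg_cancel, ex_zero]

theorem exists_dg_two {i k : Fin 3} (h : i ≠ k) :
    ∃ a c : ℝ, Real.exp (dgl a c i - dgl a c k) = 2 := by
  have key : ∃ a c : ℝ, dgl a c i - dgl a c k = Real.log 2 := by
    fin_cases i <;> fin_cases k
    · exact (h rfl).elim
    · exact ⟨Real.log 2, 0, by simp [dgl]⟩
    · exact ⟨0, Real.log 2, by simp [dgl]⟩
    · exact ⟨0, Real.log 2, by simp [dgl]⟩
    · exact (h rfl).elim
    · exact ⟨Real.log 2, 0, by simp [dgl]⟩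
    · exact ⟨0, -Real.log 2, by simp [dgl]⟩
    · exact ⟨-Real.log 2, 0, by simp [dgl]⟩
    · exact (h rfl).elim
  obtain ⟨a, c, e⟩ := key
  exact ⟨a, c, by rw [e, Real.exp_log two_pos]⟩

theorem ac_dg_ev0 (a c : ℝ) : ac (dg a c) (ev 0) = Real.exp a • ev 0 := by
  funext i
  rw [ac_dg]
  fin_cases i <;> simp [ev, dgl]

end IntAux

open IntAux

namespace Ind

variable (I : Ind K) (Φ : V → POVM V K)

/-- the intertwiners of weight `t` -/
def Int (t : ℝ) : Set (K →L[ℂ] K) :=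
  {T | T ∈ I.N ∧ (∀ f, BM f → Commute T ((Φ (ev 0)).E f)) ∧
    (∀ ν : Γ, I.ρ ν * T * I.ρ ν⁻¹ = T * (Φ (ev 0)).E (cz (ι ν⁻¹) t)) ∧
    ∀ (k : Fin 3) (h : (0 : Fin 3) ≠ k) (b : ℝ), Commute T (I.U (tv h b))}

variable {I Φ} {L : ℕ → ℝ} {s t : ℝ} {S T : K →L[ℂ] K}

theorem IsPro.int_one (h : I.IsPro Φ) : (1 : K →L[ℂ] K) ∈ I.Int Φ 0 :=
  ⟨I.one_N, fun _ _ => Commute.one_left _, fun ν => by
    rw [cz_zero, POVM.E_one, mul_one, mul_one, URep.mul_inv_self], fun _ _ _ => Commute.one_left _⟩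
theorem IsPro.int_smul (h : I.IsPro Φ) (hT : T ∈ I.Int Φ t) (c : ℂ) : c • T ∈ I.Int Φ t :=
  ⟨smul_N c hT.1, fun f hf => (hT.2.1 f hf).smul_left c, fun ν => by
    rw [mul_smul_comm, smul_mul_assoc, hT.2.2.1, smul_mul_assoc],
    fun k hk b => (hT.2.2.2 k hk b).smul_left c⟩
theorem IsPro.int_mul (h : I.IsPro Φ) (hS : S ∈ I.Int Φ s) (hT : T ∈ I.Int Φ t) :
    S * T ∈ I.Int Φ (s + t) := by
  refine ⟨mul_N hS.1 hT.1, fun f hf => (hS.2.1 f hf).mul_left (hT.2.1 f hf), fun ν => ?_,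
    fun k hk b => (hS.2.2.2 k hk b).mul_left (hT.2.2.2 k hk b)⟩
  have e : I.ρ ν * (S * T) * I.ρ ν⁻¹ = (I.ρ ν * S * I.ρ ν⁻¹) * (I.ρ ν * T * I.ρ ν⁻¹) := by
    simp only [mul_assoc]
    rw [← mul_assoc (I.ρ ν⁻¹), URep.inv_mul_self, one_mul]
  rw [e, hS.2.2.1, hT.2.2.1, cz_add, h.pvm _ _ _ (bm_cz _ _) (bm_cz _ _), mul_assoc, mul_assoc,
    ← mul_assoc _ T, ← (hT.2.1 _ (bm_cz _ s)).eq, mul_assoc]
theorem IsPro.int_star (h : I.IsPro Φ) (hT : T ∈ I.Int Φ t) : star T ∈ I.Int Φ (-t) := by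
  have hc : ∀ f, BM f → Commute (star T) ((Φ (ev 0)).E f) := fun f hf => by
    have := (hT.2.1 _ hf.conj).star_star
    rwa [POVM.E_star _ hf.conj, show (fun y => (starRingEnd ℂ) ((starRingEnd ℂ) (f y))) = f from
      funext fun y => Complex.conj_conj _] at this
  refine ⟨star_N hT.1, hc, fun ν => ?_, fun k hk b => ?_⟩
  · have := congrArg star (hT.2.2.1 ν)
    rw [star_mul, star_mul, star_mul, URep.star_apply, URep.star_apply, inv_inv,
      POVM.E_star _ (bm_cz _ _), cz_neg, ← (hc _ (bm_cz _ _)).eq, ← mul_assoc] at this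
    exact this
  · have := (hT.2.2.2 k hk (-b)).star_star
    rwa [URep.star_apply, tv_inv, neg_neg] at this
theorem IsPro.int_zero (h : I.IsPro Φ) (hT : T ∈ I.Int Φ 0) : ∃ c : ℂ, T = c • 1 := by
  refine I.erg_Q ⟨hT.1, fun ν => ?_⟩ (show (0 : Fin 3) ≠ 1 by decide) (hT.2.2.2 _ _)
  have h1 := hT.2.2.1 ν
  rw [cz_zero, POVM.E_one, mul_one] at h1
  have h2 := congrArg (· * I.ρ ν) h1
  simp only [mul_assoc, URep.inv_mul_self, mul_one] at h2
  exact h2.symm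
theorem IsPro.int_conj (h : I.IsPro Φ) (hT : T ∈ I.Int Φ t) {q : G} {z : ℝ}
    (hq : ac q (ev 0) = z • ev 0) : I.U q * T * I.U q⁻¹ ∈ I.Int Φ t := by
  have hc : ∀ f, BM f → Commute (I.U q) ((Φ (ev 0)).E f) := fun f hf =>
    (h.pre.commute (ev_ne_zero 0) hq hf).symm
  have inv : ∀ {A : K →L[ℂ] K}, Commute (I.U q) A → Commute (I.U q⁻¹) A := fun {A} hA => by
    have h1 : I.U q⁻¹ * (I.U q * A) * I.U q⁻¹ = I.U q⁻¹ * (A * I.U q) * I.U q⁻¹ := by rw [hA.eq]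
    rw [← mul_assoc, URep.inv_mul_self, one_mul, mul_assoc, mul_assoc, URep.mul_inv_self,
      mul_one] at h1
    exact h1.symm
  refine ⟨conj_N hT.1 q, fun f hf => ((hc f hf).mul_left (hT.2.1 f hf)).mul_left (inv (hc f hf)),
    fun ν => ?_, fun k hk b => ?_⟩
  · have e : I.ρ ν * (I.U q * T * I.U q⁻¹) * I.ρ ν⁻¹ = I.U q * (I.ρ ν * T * I.ρ ν⁻¹) * I.U q⁻¹ := by
      simp only [← mul_assoc, ← (I.Uρ q ν).eq]
      simp only [mul_assoc, (I.Uρ q⁻¹ ν⁻¹).eq]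
    rw [e, hT.2.2.1]
    simp only [mul_assoc, (inv (hc _ (bm_cz _ _))).eq]
  · have e := tv_mul_par hq hk b
    set u : G := tv (show (0 : Fin 3) ≠ 1 by decide) (b * q k 1 / z)
      * tv (show (0 : Fin 3) ≠ 2 by decide) (b * q k 2 / z) with hu
    have hTu : Commute T (I.U u) := by
      rw [hu, map_mul]; exact (hT.2.2.2 _ _ _).mul_right (hT.2.2.2 _ _ _)
    have e' : tv hk b = q * u * q⁻¹ := by rw [hu, ← mul_assoc, ← e, mul_inv_cancel_right]
    rw [e', map_mul, map_mul]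
    change _ * _ = _ * _
    simp only [mul_assoc]
    rw [← mul_assoc (I.U q⁻¹), ← mul_assoc (I.U q⁻¹), URep.inv_mul_self, one_mul, one_mul,
      ← mul_assoc T, hTu.eq, mul_assoc]
theorem IsPro.int_star_mul (h : I.IsPro Φ) (hT : T ∈ I.Int Φ t) :
    star T * T = ((‖T‖ ^ 2 : ℝ) : ℂ) • 1 ∧ T * star T = ((‖T‖ ^ 2 : ℝ) : ℂ) • 1 := by
  constructor
  · obtain ⟨c, hc⟩ := h.int_zero (by simpa using h.int_mul (h.int_star hT) hT)
    rw [hc, scalar_eq I.ξ_ne hc]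
  · obtain ⟨c, hc⟩ := h.int_zero (by simpa using h.int_mul hT (h.int_star hT))
    have := scalar_eq (T := star T) I.ξ_ne (by rw [star_star]; exact hc)
    rw [hc, this, norm_star]
theorem IsPro.int_unit (h : I.IsPro Φ) (hT : T ∈ I.Int Φ t) (h0 : T ≠ 0) :
    ((‖T‖ : ℂ)⁻¹ • T) ∈ unitary (K →L[ℂ] K) := by
  have hn : (‖T‖ : ℂ) ≠ 0 := by exact_mod_cast norm_ne_zero_iff.2 h0
  have e : (‖T‖ : ℂ)⁻¹ * ((‖T‖ : ℂ)⁻¹ * ((‖T‖ ^ 2 : ℝ) : ℂ)) = 1 := by
    push_cast; field_simp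
  have hs : star ((‖T‖ : ℂ)⁻¹) = (‖T‖ : ℂ)⁻¹ := by simp
  rw [Unitary.mem_iff, star_smul, hs]
  simp only [smul_mul_assoc, mul_smul_comm, (h.int_star_mul hT).1, (h.int_star_mul hT).2, smul_smul,
    e, one_smul, and_self]
theorem IsPro.int_line (h : I.IsPro Φ) (hS : S ∈ I.Int Φ t) (hT : T ∈ I.Int Φ t)
    (hu : T ∈ unitary (K →L[ℂ] K)) : ∃ c : ℂ, S = c • T := by
  obtain ⟨c, hc⟩ := h.int_zero (by simpa using h.int_mul hS (h.int_star hT))
  refine ⟨c, ?_⟩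
  rw [← mul_one S, ← (Unitary.mem_iff.1 hu).1, ← mul_assoc, hc, smul_mul_assoc, one_mul]
theorem IsPro.int_norm (h : I.IsPro Φ) (hT : T ∈ I.Int Φ t) (η : K) : ‖T η‖ = ‖T‖ * ‖η‖ := by
  by_cases h0 : T = 0
  · simp [h0]
  have h1 := ContinuousLinearMap.norm_map_of_mem_unitary (h.int_unit hT h0) η
  rw [_root_.smul_apply, norm_smul, norm_inv, Complex.norm_real, norm_norm] at h1
  rw [← h1, ← mul_assoc, mul_inv_cancel₀ (norm_ne_zero_iff.2 h0), one_mul]

/-- the weak limits of the level functions -/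
theorem IsPro.exists_level (h : I.IsPro Φ) (hL : I.Tight L) (l : Ultrafilter ℕ)
    (hl : (l : Filter ℕ) ≤ atTop) : ∃ T : ℝ → K →L[ℂ] K, T 0 = 1 ∧
      (∀ η, Continuous fun t => T t η) ∧ ∀ t, T t ∈ I.Int Φ t ∧ T t ∈ I.LimSet ∧
      WTends l (fun k => I.σ k (I.m fun μ => ex (t * (Real.log (nm (ι μ)) - 2 * L k)))) (T t) := by
  set F : ℝ → ℕ → Γ → ℂ := fun t k μ => ex (t * (Real.log (nm (ι μ)) - 2 * L k)) with hF
  have nF : ∀ t k μ, ‖F t k μ‖ ≤ 1 := fun t k μ => (norm_ex _).le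
  have bF : ∀ t k, BM (F t k) := fun t k => bm_Γ (nF t k)
  have hex : ∀ t, ∃ T, WTends l (fun k => I.σ k (I.m (F t k))) T := fun t => by
    obtain ⟨T, -, hT⟩ := exists_wtends l (T := fun k => I.σ k (I.m (F t k))) (C := 1)
      (Eventually.of_forall fun k => by rw [norm_σ]; exact I.norm_m_le zero_le_one (nF t k))
    exact ⟨T, hT⟩
  choose T hT using hex
  have hlim : ∀ t, T t ∈ I.LimSet := fun t => ⟨l, F t, inferInstance, hl, nF t, hT t⟩
  refine ⟨T, ?_, fun η => ?_, fun t => ⟨⟨?_, fun f hf => ?_, fun ν => ?_,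
    fun k hk b => limSet_commute (hlim t) hk b⟩, hlim t, hT t⟩⟩
  · refine (hT 0).unique fun w v => ?_
    have e : ∀ k, I.σ k (I.m (F 0 k)) = 1 := fun k => by
      have : F 0 k = fun _ => 1 := funext fun μ => by simp [hF]
      rw [this, m_one, σ_one]
    simp only [e]
    exact tendsto_const_nhds
  · refine continuous_iff_continuousAt.2 fun s => Metric.tendsto_nhds.2 fun ε hε => ?_
    obtain ⟨R, hR⟩ := hL.seq η (ε / 4) (by positivity)
    have hc : Tendsto (fun t => |t - s| * |R| * ‖η‖) (𝓝 s) (𝓝 0) := by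
      have : Continuous fun t => |t - s| * |R| * ‖η‖ := by fun_prop
      simpa using this.tendsto s
    filter_upwards [hc.eventually (gt_mem_nhds (show (0 : ℝ) < ε / 4 by positivity))] with t ht
    rw [dist_eq_norm, ← _root_.sub_apply]
    refine lt_of_le_of_lt (IntAux.norm_le_of_wtends (wtends_sub (hT t) (hT s))
      (C := |t - s| * |R| * ‖η‖ + 2 * (ε / 4)) ?_) (by linarith)
    filter_upwards [hl hR] with k hk
    rw [← σ_sub, norm_σ_apply, ← mP_E, ← POVM.E_sub _ (bF t k) (bF s k), mP_E]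
    refine (I.norm_m_apply_le _ _).trans ((I.norm_mJ_le_split (S := Sh (L k) R) (ε := |t - s| * |R|)
      (C := 2) (by positivity) zero_le_two (fun μ hμ => ?_) (fun μ => ?_) _).trans ?_)
    · refine (norm_ex_sub_ex_le _ _).trans ?_
      rw [← sub_mul, abs_mul]
      exact mul_le_mul_of_nonneg_left (hμ.1.trans (le_abs_self R)) (abs_nonneg _)
    · exact (norm_sub_le _ _).trans (by linarith [nF t k μ, nF s k μ])
    · rw [URep.norm_map]
      linarith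
  · exact wtends_N (Eventually.of_forall fun k => I.σ_N (I.m_N (bF t k)) k) (hT t)
  · refine (h.proj _).commute (fun g hg h0 hc => ?_) hf
    have := h.wtends_mul hg h0 hc hl (nF t) (hT t)
    exact this.1.unique this.2
  · have h1 : WTends l (fun k => I.σ k (I.m fun μ => F t k (ν⁻¹ * μ))) (I.ρ ν * T t * I.ρ ν⁻¹) := by
      have := ((hT t).mul_left (I.ρ ν)).mul_right (I.ρ ν⁻¹)
      simpa only [ρ_σ, I.ρ_m (bF t _)] using this
    have h2 := (h.wtends_mul (bm_cz (ι ν⁻¹) t) (hom0_cz _ _) (continuousOn_cz _ _) hl (nF t)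
      (hT t)).1
    refine sub_eq_zero.1 ((wtends_sub h1 h2).unique (WTends.of_strong fun η => ?_))
    have nG : ∀ k μ, ‖F t k (ν⁻¹ * μ) - F t k μ * cz (ι ν⁻¹) t (pt μ)‖ ≤ 2 := fun k μ => by
      refine (norm_sub_le _ _).trans ?_
      rw [norm_mul, cz, norm_ex (t * (_ - Real.log ‖pt μ‖)), mul_one]
      linarith [nF t k (ν⁻¹ * μ), nF t k μ]
    have h3 := ((hL.seq η).mono hl).tendsto_mJ (C := ‖η‖)
      (Eventually.of_forall fun k => (URep.norm_map _ _ _).le) nG fun R ε hε => by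
        have h4 := (hL.1.mono_left hl).eventually
          (cov_nm ν⁻¹ R (ε := ε / (|t| + 1)) (by positivity))
        filter_upwards [h4] with k hk μ hμ
        simp only [hF, cz, ← ex_add]
        refine (norm_ex_sub_ex_le _ _).trans ?_
        have h5 := hk μ hμ
        have h6 : Real.log ‖ac (ι ν⁻¹) (nrm (pt μ))‖
            = Real.log ‖ac (ι ν⁻¹) (pt μ)‖ - Real.log ‖pt μ‖ := by
          rw [nrm, ac_smul, norm_smul, norm_inv, norm_norm, Real.log_mul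
            (inv_ne_zero (norm_ne_zero_iff.2 (pt_ne_zero μ)))
            (norm_ne_zero_iff.2 (ac_ne_zero _ (pt_ne_zero μ))), Real.log_inv]
          ring
        rw [h6] at h5
        have e : t * (Real.log (nm (ι (ν⁻¹ * μ))) - 2 * L k)
            - (t * (Real.log (nm (ι μ)) - 2 * L k)
              + t * (Real.log ‖ac (ι ν⁻¹) (pt μ)‖ - Real.log ‖pt μ‖))
            = t * (Real.log (nm (ι (ν⁻¹ * μ))) - Real.log (nm (ι μ))
              - (Real.log ‖ac (ι ν⁻¹) (pt μ)‖ - Real.log ‖pt μ‖)) := by ring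
        rw [e, abs_mul]
        refine (mul_le_mul_of_nonneg_left h5 (abs_nonneg t)).trans ?_
        rw [← mul_div_assoc, div_le_iff₀ (by positivity)]
        nlinarith [abs_nonneg t]
    rw [_root_.zero_apply, tendsto_zero_iff_norm_tendsto_zero]
    refine squeeze_zero (fun _ => norm_nonneg _) (fun k => ?_)
      (tendsto_zero_iff_norm_tendsto_zero.1 h3)
    have b1 : BM fun μ => F t k (ν⁻¹ * μ) := bm_Γ fun μ => nF t k _
    have b2 : BM fun μ => F t k μ * cz (ι ν⁻¹) t (pt μ) :=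
      (bF t k).mul ((bm_cz _ _).comp measurable_from_top)
    rw [← σ_sub, norm_σ_apply, ← mP_E, ← POVM.E_sub _ b1 b2, mP_E]
    exact I.norm_m_apply_le _ _

/-- the one parameter group -/
theorem IsPro.exists_group (h : I.IsPro Φ) {T : ℝ → K →L[ℂ] K} (h0 : T 0 = 1)
    (hc : ∀ η, Continuous fun t => T t η) (hT : ∀ t, T t ∈ I.Int Φ t) :
    ∃ v : ℝ → K →L[ℂ] K, v 0 = 1 ∧ (∀ s t, v (s + t) = v s * v t) ∧ (∀ t η, ‖v t η‖ = ‖η‖) ∧
      (∀ η, Continuous fun t => v t η) ∧ (∀ t, v t ∈ I.Int Φ t) ∧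
      (∀ t, v t ∈ unitary (K →L[ℂ] K)) ∧
      ∃ t₁ > (0 : ℝ), ∀ t, |t| < t₁ → ∃ c : ℂ, c ≠ 0 ∧ T t = c • v t := by
  have := I.nontrivial
  have hξ : ‖I.ξ‖ ≠ 0 := norm_ne_zero_iff.2 I.ξ_ne
  have hn : Continuous fun t => ‖T t‖ := by
    have e : (fun t => ‖T t‖) = fun t => ‖T t I.ξ‖ / ‖I.ξ‖ := funext fun t => by
      rw [h.int_norm (hT t), mul_div_cancel_right₀ _ hξ]
    rw [e]
    exact (hc I.ξ).norm.div_const _
  have hpos : ∀ᶠ t in 𝓝 (0 : ℝ), 0 < ‖T t‖ :=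
    (hn.tendsto 0).eventually (lt_mem_nhds (by rw [h0, norm_one]; exact one_pos))
  obtain ⟨t₀, ht₀, hball⟩ := Metric.eventually_nhds_iff.1 hpos
  have hne : ∀ t, |t| < t₀ → T t ≠ 0 := fun t ht =>
    norm_pos_iff.1 (hball (by rwa [Real.dist_eq, sub_zero]))
  have hu : ∀ t, (‖T t‖ : ℂ)⁻¹ • T t ∈ I.Int Φ t := fun t => h.int_smul (hT t) _
  obtain ⟨v, t₁, ht₁, ht₁', v0, vadd, vn, vc, hv⟩ := bargmann ht₀ (fun t => (‖T t‖ : ℂ)⁻¹ • T t)
    (by simp [h0]) (fun t ht => h.int_unit (hT t) (hne t ht))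
    (fun η => by
      simp only [_root_.smul_apply]
      refine ContinuousOn.smul (ContinuousOn.inv₀ ?_ fun t ht => ?_) (hc η).continuousOn
      · exact (Complex.continuous_ofReal.comp hn).continuousOn
      · exact_mod_cast norm_ne_zero_iff.2 (hne t (abs_lt.2 ht)))
    (fun s t hs ht hst => h.int_line (h.int_mul (hu s) (hu t)) (hu (s + t))
      (h.int_unit (hT _) (hne _ hst)))
  have hsmall : ∀ t, |t| < t₁ → v t ∈ I.Int Φ t := fun t ht => by
    obtain ⟨z, -, e⟩ := hv t ht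
    rw [e]
    exact h.int_smul (hu t) z
  have hmul : ∀ t, |t| < t₁ → ∀ n : ℕ, v (n * t) ∈ I.Int Φ (n * t) := fun t ht n => by
    induction n with
    | zero => simpa [v0] using h.int_one
    | succ n ih =>
      rw [Nat.cast_succ, add_mul, one_mul, vadd]
      exact h.int_mul ih (hsmall t ht)
  have hall : ∀ t, v t ∈ I.Int Φ t := fun t => by
    obtain ⟨n, hn⟩ := exists_nat_gt (|t| / t₁)
    have hn0 : (0 : ℝ) < n := lt_of_le_of_lt (by positivity) hn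
    have := hmul (t / n) (by
      rw [abs_div, abs_of_pos hn0, div_lt_iff₀ hn0, mul_comm]
      exact (div_lt_iff₀ ht₁).1 hn) n
    rwa [mul_div_cancel₀ _ hn0.ne'] at this
  refine ⟨v, v0, vadd, vn, vc, hall, fun t => ?_, t₁, ht₁, fun t ht => ?_⟩
  · have h1 : ‖v t‖ = 1 := by
      have := h.int_norm (hall t) I.ξ
      rw [vn] at this
      exact (mul_eq_right₀ hξ).1 this.symm
    have := h.int_unit (hall t) (norm_ne_zero_iff.1 (by rw [h1]; exact _root_.one_ne_zero))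
    simpa [h1] using this
  · obtain ⟨z, hz, e⟩ := hv t ht
    have hz0 : z ≠ 0 := norm_ne_zero_iff.1 (by rw [hz]; exact _root_.one_ne_zero)
    have hT0 : (‖T t‖ : ℂ) ≠ 0 := by exact_mod_cast norm_ne_zero_iff.2 (hne t (ht.trans_le ht₁'))
    refine ⟨‖T t‖ * z⁻¹, mul_ne_zero hT0 (inv_ne_zero hz0), ?_⟩
    rw [e, smul_smul, smul_smul, mul_assoc _ z⁻¹, inv_mul_cancel₀ hz0, mul_one,
      mul_inv_cancel₀ hT0, one_smul]

/-- the parabolic acts on the group by a character that only depends on the eigenvalue -/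
theorem IsPro.exists_sc (h : I.IsPro Φ) {v : ℝ → K →L[ℂ] K} (h0 : v 0 = 1)
    (hadd : ∀ s t, v (s + t) = v s * v t) (hc : ∀ η, Continuous fun t => v t η)
    (hv : ∀ t, v t ∈ I.Int Φ t) (hu : ∀ t, v t ∈ unitary (K →L[ℂ] K)) :
    ∃ sc : ℝ → ℝ, (∀ z, z ≠ 0 → 0 < sc z) ∧ (∀ z w, z ≠ 0 → w ≠ 0 → sc (z * w) = sc z * sc w) ∧
      ∀ (q : G) (z : ℝ), ac q (ev 0) = z • ev 0 → ∀ t,
        I.U q * v t * I.U q⁻¹ = ex (t * Real.log (sc z)) • v t := by
  have hξ : ‖I.ξ‖ ≠ 0 := norm_ne_zero_iff.2 I.ξ_ne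
  have vn : ∀ t η, ‖v t η‖ = ‖η‖ := fun t => ContinuousLinearMap.norm_map_of_mem_unitary (hu t)
  have vne : ∀ t, v t ≠ 0 := fun t e => hξ (by rw [← vn t, e, _root_.zero_apply, norm_zero])
  let Pr : G → ℝ → Prop := fun q l => ∀ t, I.U q * v t * I.U q⁻¹ = ex (l * t) • v t
  have uniq : ∀ q l l', Pr q l → Pr q l' → l = l' := fun q l l' h1 h2 =>
    ex_inj fun t => smul_left_injective ℂ (vne t) ((h1 t).symm.trans (h2 t))
  have one : Pr 1 0 := fun t => by simp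
  have mul : ∀ q q' l l', Pr q l → Pr q' l' → Pr (q * q') (l + l') := fun q q' l l' h1 h2 t => by
    have e : I.U (q * q') * v t * I.U (q * q')⁻¹ = I.U q * (I.U q' * v t * I.U q'⁻¹) * I.U q⁻¹ := by
      simp only [_root_.mul_inv_rev, map_mul, mul_assoc]
    rw [e, h2, mul_smul_comm, smul_mul_assoc, h1, smul_smul, ← ex_add, add_mul, add_comm]
  have ex1 : ∀ q z, ac q (ev 0) = z • ev 0 → ∃ l, Pr q l := fun q z hq => by
    choose χ hχ using fun t => h.int_line (h.int_conj (hv t) hq) (hv t) (hu t)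
    have hχ' : ∀ t, χ t = ⟪v t I.ξ, I.U q (v t (I.U q⁻¹ I.ξ))⟫_ℂ / ((‖I.ξ‖ : ℂ) ^ 2) := fun t => by
      have e : I.U q (v t (I.U q⁻¹ I.ξ)) = χ t • v t I.ξ :=
        congrArg (fun A : K →L[ℂ] K => A I.ξ) (hχ t)
      rw [e, inner_smul_right, inner_self_eq_norm_sq_to_K, vn]
      exact (mul_div_cancel_right₀ _ (pow_ne_zero 2 (Complex.ofReal_ne_zero.2 hξ))).symm
    obtain ⟨l, hl⟩ := exists_char (χ := χ)
      (by
        rw [funext hχ']
        exact ((hc _).inner ((I.U q).continuous.comp (hc _))).div_const _)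
      (fun s t => smul_left_injective ℂ (vne (s + t)) (by
        have e : I.U q * (v s * v t) * I.U q⁻¹
            = (I.U q * v s * I.U q⁻¹) * (I.U q * v t * I.U q⁻¹) := by
          simp only [mul_assoc]
          rw [← mul_assoc (I.U q⁻¹), URep.inv_mul_self, one_mul]
        simp only
        rw [← hχ, hadd, e, hχ, hχ, smul_mul_assoc, mul_smul_comm, smul_smul]))
      (fun t => by
        have e : I.U q (v t (I.U q⁻¹ I.ξ)) = χ t • v t I.ξ :=
          congrArg (fun A : K →L[ℂ] K => A I.ξ) (hχ t)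
        have e' := congrArg norm e
        rw [URep.norm_map, vn, URep.norm_map, norm_smul, vn] at e'
        exact (mul_eq_right₀ hξ).1 e'.symm)
    exact ⟨l, fun t => by rw [hχ, hl]⟩
  have inv : ∀ q z l, ac q (ev 0) = z • ev 0 → Pr q l → Pr q⁻¹ (-l) := fun q z l hq h1 => by
    have hz := ne_zero_of_ev0 hq
    have hq' : ac q⁻¹ (ev 0) = z⁻¹ • ev 0 := by
      rw [← ac_inv_ac q (z⁻¹ • ev 0), ac_smul, hq, smul_smul, inv_mul_cancel₀ hz, one_smul]
    obtain ⟨l', h2⟩ := ex1 _ _ hq'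
    have h3 := mul _ _ _ _ h1 h2
    rw [mul_inv_cancel] at h3
    rwa [eq_neg_of_add_eq_zero_right (uniq _ _ _ h3 one)] at h2
  have htv : ∀ (i k : Fin 3) (hik : i ≠ k) (b : ℝ), k ≠ 0 → Pr (tv hik b) 0 := fun i k hik b hk => by
    have hq : ac (tv hik b) (ev 0) = (1 : ℝ) • ev 0 := by
      rw [ac_tv]; simp [ev, hk]
    obtain ⟨l, h1⟩ := ex1 _ _ hq
    obtain ⟨a, c, hd⟩ := exists_dg_two hik
    obtain ⟨m, h2⟩ := ex1 _ _ (ac_dg_ev0 a c)
    have h3 := mul _ _ _ _ (mul _ _ _ _ h2 h1) (inv _ _ _ (ac_dg_ev0 a c) h2)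
    rw [dg_conj_tv, hd, two_mul, tv_add] at h3
    have h4 := uniq _ _ _ h3 (mul _ _ _ _ h1 h1)
    have h5 : l = 0 := by linarith
    rwa [h5] at h1
  have stab : ∀ q, ac q (ev 0) = ev 0 → Pr q 0 := fun q hq =>
    stab_induction (fun g => Pr g 0) one (fun g g' h1 h2 => by simpa using mul _ _ _ _ h1 h2) htv hq
  have ex2 : ∀ z : ℝ, ∃ l, ∀ q, ac q (ev 0) = z • ev 0 → Pr q l := fun z => by
    by_cases hz : ∃ q, ac q (ev 0) = z • ev 0
    · obtain ⟨q₀, hq₀⟩ := hz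
      obtain ⟨l, hl⟩ := ex1 _ _ hq₀
      refine ⟨l, fun q hq => ?_⟩
      have h1 := mul _ _ _ _ hl (stab (q₀⁻¹ * q) (by rw [ac_mul, hq, ← hq₀, ac_inv_ac]))
      rwa [mul_inv_cancel_left, add_zero] at h1
    · exact ⟨0, fun q hq => (hz ⟨q, hq⟩).elim⟩
  choose lam hlam using ex2
  refine ⟨fun z => Real.exp (lam z), fun z _ => Real.exp_pos _, fun z w hz hw => ?_,
    fun q z hq t => ?_⟩
  · obtain ⟨q, hq⟩ := exists_ac_ev (smul_ne_zero hz (ev_ne_zero 0)) 0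
    obtain ⟨q', hq'⟩ := exists_ac_ev (smul_ne_zero hw (ev_ne_zero 0)) 0
    have h1 : ac (q * q') (ev 0) = (z * w) • ev 0 := by
      rw [ac_mul, hq', ac_smul, hq, smul_smul, mul_comm]
    simp only
    rw [← Real.exp_add, uniq _ _ _ (hlam _ _ h1) (mul _ _ _ _ (hlam _ _ hq) (hlam _ _ hq'))]
  · rw [Real.log_exp, mul_comm t]
    exact hlam z q hq t

end Ind

end Crest.Agent.N111
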