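import Crest.Agent.N111.E.Int
import Crest.Agent.N111.D.Pvm

/-! # Row 111: `LiftStmt` and `LiftCommStmt` (fill the proofs IN PLACE). -/

set_option autoImplicit false
set_option linter.unusedSectionVars false
set_option linter.unusedVariables false

namespace Crest.Agent.N111

open MeasureTheory Topology Filter Matrix
open scoped InnerProductSpace

variable {K : Type} [NormedAddCommGroup K] [InnerProductSpace ℂ K] [CompleteSpace K]

namespace LiftH

/-- polar coordinates -/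
noncomputable def pol (z : V × ℝ) : V := Real.exp z.2 • sg (nrm z.1)

lemma measurable_pol : Measurable pol := by
  unfold pol
  fun_prop

lemma norm_sg (a : V) : ‖sg a‖ = ‖a‖ := by
  rcases sg_eq a with h | h <;> rw [h]
  exact norm_neg a

lemma sg_pol (z : V × ℝ) : sg (pol z) = pol z := by
  rw [pol, sg_smul (Real.exp_pos _), sg_sg]

lemma nrm_pol (z : V × ℝ) : nrm (pol z) = sg (nrm z.1) := by
  rw [pol, nrm_smul (Real.exp_pos _)]
  rcases sg_eq (nrm z.1) with h | h <;> rw [h]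
  · exact nrm_nrm _
  · rw [nrm_neg, nrm_nrm]

lemma norm_pol {z : V × ℝ} (h : z.1 ≠ 0) : ‖pol z‖ = Real.exp z.2 := by
  rw [pol, norm_smul, norm_sg, norm_nrm h, mul_one, Real.norm_of_nonneg (Real.exp_pos _).le]

lemma ic_pol (z : V × ℝ) : ic {0} (pol z) = ic {0} z.1 := by
  by_cases h : z.1 = 0
  · have : pol z = 0 := by
      rw [pol, h, nrm_zero, ← norm_eq_zero, norm_smul, norm_sg, norm_zero, mul_zero]
    rw [this, h]
  · have : pol z ≠ 0 := by
      rw [← norm_ne_zero_iff, norm_pol h]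
      exact (Real.exp_pos _).ne'
    rw [ic_of_notMem (O := {0}) this, ic_of_notMem (O := {0}) h]

lemma bm_ic0 : BM (ic ({0} : Set V)) := BM.ic (measurableSet_singleton 0)

section
variable {A : Type*} [Group A] (U : URep A K)

lemma uconj_mul (g : A) (S T : K →L[ℂ] K) :
    U g * (S * T) * U g⁻¹ = U g * S * U g⁻¹ * (U g * T * U g⁻¹) := by
  simp only [mul_assoc]
  rw [← mul_assoc (U g⁻¹), URep.inv_mul_self, one_mul]

lemma uconj_star (g : A) (S : K →L[ℂ] K) : U g * star S * U g⁻¹ = star (U g * S * U g⁻¹) := by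
  simp only [star_mul, URep.star_apply, inv_inv, mul_assoc]

lemma uconj_conj (g h : A) (T : K →L[ℂ] K) :
    U g * (U h * T * U h⁻¹) * U g⁻¹ = U (g * h) * T * U (g * h)⁻¹ := by
  simp only [_root_.mul_inv_rev, map_mul, mul_assoc]

lemma uconj_eq {g : A} {T : K →L[ℂ] K} (h : Commute T (U g)) : U g * T * U g⁻¹ = T := by
  rw [← h.eq, mul_assoc, URep.mul_inv_self, mul_one]

lemma commute_of_conj {g : A} {T : K →L[ℂ] K} (h : U g * T * U g⁻¹ = T) : Commute T (U g) := by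
  have := congrArg (· * U g) h
  simp only [mul_assoc, URep.inv_mul_self, mul_one] at this
  exact this.symm

lemma commute_conj (g : A) {S T : K →L[ℂ] K} (h : Commute S T) :
    Commute (U g * S * U g⁻¹) (U g * T * U g⁻¹) := by
  rw [Commute, SemiconjBy, ← uconj_mul, ← uconj_mul, h.eq]

end

/-- an operator commuting with a one parameter group near the origin commutes with it -/
lemma commute_group {v : ℝ → K →L[ℂ] K} (h0 : v 0 = 1) (hadd : ∀ s t, v (s + t) = v s * v t)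
    {S : K →L[ℂ] K} {t₁ : ℝ} (ht₁ : 0 < t₁) (h : ∀ t, |t| < t₁ → Commute S (v t)) (t : ℝ) :
    Commute S (v t) := by
  obtain ⟨n, hn⟩ := exists_nat_gt (|t| / t₁)
  have hn0 : (0 : ℝ) < n := (div_nonneg (abs_nonneg t) ht₁.le).trans_lt hn
  have key : ∀ m : ℕ, Commute S (v (m * (t / n))) := fun m => by
    induction m with
    | zero => rw [Nat.cast_zero, zero_mul, h0]; exact Commute.one_right S
    | succ m ih =>
      rw [Nat.cast_succ, add_mul, one_mul, hadd]
      refine ih.mul_right (h _ ?_)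
      rw [abs_div, abs_of_pos hn0, div_lt_iff₀ hn0, mul_comm]
      exact (div_lt_iff₀ ht₁).1 hn
  have := key n
  rwa [mul_div_cancel₀ _ hn0.ne'] at this

/-- the data of the lift at the base point -/
structure Base (P A : POVM V K) (v : ℝ → K →L[ℂ] K) : Prop where
  pvm : A.IsPVM
  sym : A.Sym
  proj : ∀ f, BM f → P.E f = A.E fun a => f (nrm a)
  lg : ∀ t, A.E (lg t) = v t

namespace Base

variable {P A : POVM V K} {v : ℝ → K →L[ℂ] K} (h : Base P A v) {f : V → ℂ}
include h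

lemma hom0 (hf : BM f) (h0 : Hom0 f) : A.E f = P.E f := by
  rw [h.proj f hf, funext h0.nrm]

lemma mul_lg (hf : BM f) (h0 : Hom0 f) (t : ℝ) :
    A.E (fun a => f a * N111.lg t a) = P.E f * v t := by
  rw [h.pvm _ _ hf (bm_lg t), h.hom0 hf h0, h.lg]

lemma commute {S : K →L[ℂ] K} (hP : ∀ f, BM f → Commute S (P.E f)) (hv : ∀ t, Commute S (v t))
    (hf : BM f) : Commute S (A.E f) := by
  refine h.sym.commute (fun f hf he => ?_) hf
  have := (A.isPoly1.mul S 1).ext_lift (A.isPoly1.mul 1 S) (by simp only [h.sym.zero, mul_zero, zero_mul])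
    (fun f hf h0 t => by
      rw [h.mul_lg hf h0, mul_one, one_mul]
      exact ((hP f hf).mul_right (hv t)).eq) f hf he
  rwa [mul_one, one_mul] at this

/-- scaling -/
lemma conj_smul {S S' : K →L[ℂ] K} {r : ℝ} (hr : 0 < r)
    (e : ∀ f, BM f → ∀ t, S * (P.E f * v t) * S' = ex (t * Real.log r) • (P.E f * v t))
    (hf : BM f) : S * A.E f * S' = A.E fun a => f (r • a) := by
  have hm : Measurable fun a : V => r • a := by fun_prop
  have key := (A.isPoly1.mul S S').ext_lift (A.isPoly1.comp hm (BM.const 1)) (by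
      have : (fun a : V => 1 * ic ({0} : Set V) (r • a)) = ic {0} := funext fun a => by
        by_cases ha : a = 0
        · rw [ha, smul_zero, one_mul]
        · rw [one_mul, ic_of_notMem (O := {0}) ha, ic_of_notMem (O := {0}) (smul_ne_zero hr.ne' ha)]
      simp only [this, h.sym.zero, mul_zero, zero_mul])
    (fun f hf h0 t => by
      rw [h.mul_lg hf h0, e f hf, ← h.mul_lg hf h0, ← A.E_smul _ (hf.mul (bm_lg t))]
      refine A.E_congr_of_null (measurableSet_singleton 0) h.sym.zero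
        ((hf.mul (bm_lg t)).const_mul _) (((hf.mul (bm_lg t)).comp hm).const_mul _) fun a ha => ?_
      beta_reduce
      rw [h0 r hr.ne', lg_smul t hr ha]
      ring)
  rw [h.sym.conc f hf, key _ (hf.comp measurable_sg) fun a => by rw [sg_neg],
    h.sym.conc _ (hf.comp hm)]
  simp only [one_mul, sg_smul hr]

/-- covariance -/
lemma conj_ac {S S' : K →L[ℂ] K} (g : G)
    (e : ∀ f, BM f → Hom0 f → ∀ t,
      S * (P.E f * v t) * S' = P.E (fun a => f (ac g a)) * (v t * P.E (cz g t)))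
    (hf : BM f) (he : Ev f) : S * A.E f * S' = A.E fun a => f (ac g a) := by
  have key := (A.isPoly1.mul S S').ext_lift (A.isPoly1.comp (measurable_ac g) (BM.const 1)) (by
      have : (fun a : V => 1 * ic ({0} : Set V) (ac g a)) = ic {0} := funext fun a => by
        by_cases ha : a = 0
        · rw [ha, ac_zero, one_mul]
        · rw [one_mul, ic_of_notMem (O := {0}) ha, ic_of_notMem (O := {0}) (ac_ne_zero g ha)]
      simp only [this, h.sym.zero, mul_zero, zero_mul])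
    (fun f hf h0 t => by
      have hf' := hf.comp (measurable_ac g)
      rw [h.mul_lg hf h0, e f hf h0, ← h.hom0 hf' (h0.ac g), ← h.hom0 (bm_cz g t) (hom0_cz g t),
        ← h.lg, ← h.pvm _ _ (bm_lg t) (bm_cz g t), ← h.pvm _ _ hf' ((bm_lg t).mul (bm_cz g t))]
      simp only [one_mul, lg_ac])
  simpa only [one_mul] using key f hf he

end Base

end LiftH

open LiftH

/-- the lifted PVM attached to a projective PVM and a commuting one parameter group -/
theorem exists_lift_pvm {P : POVM V K} (hP : P.Proj) (hp : P.IsPVM) {v : ℝ → K →L[ℂ] K}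
    (h0 : v 0 = 1) (hadd : ∀ s t, v (s + t) = v s * v t) (hn : ∀ t η, ‖v t η‖ = ‖η‖)
    (hc : ∀ η, Continuous fun t => v t η) (hcomm : ∀ t f, BM f → Commute (v t) (P.E f)) :
    ∃ A : POVM V K, A.IsPVM ∧ A.Sym ∧ (∀ f, BM f → P.E f = A.E fun a => f (nrm a)) ∧
      ∀ t, A.E (lg t) = v t := by
  obtain ⟨D, hD, hDv⟩ := POVM.stone v h0 hadd hn hc
  have hPD : ∀ f g, BM f → BM g → Commute (P.E f) (D.E g) := fun f g hf hg => by
    have := (D.isPoly1.mul (P.E f) 1).ext_ex (D.isPoly1.mul 1 (P.E f))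
      (fun t => by rw [hDv, mul_one, one_mul, (hcomm t f hf).eq]) g hg
    rwa [mul_one, one_mul] at this
  obtain ⟨J, hJ, hJE⟩ := POVM.exists_joint hp hD hPD
  have h1 : ∀ f, BM f → J.E (fun z => f z.1) = P.E f := fun f hf => by
    have := hJE f (fun _ => 1) hf (BM.const 1)
    rwa [D.E_one, mul_one, funext fun z : V × ℝ => mul_one (f z.1)] at this
  refine ⟨J.map pol measurable_pol, hJ.map _ _, ⟨fun f hf => ?_, ?_⟩, fun f hf => ?_, fun t => ?_⟩
  · simp only [POVM.map_E, sg_pol]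
  · simp only [POVM.map_E, ic_pol]
    rw [h1 _ bm_ic0, hP.zero]
  · simp only [POVM.map_E, nrm_pol]
    rw [h1 (fun a => f (sg (nrm a))) (hf.comp (measurable_sg.comp measurable_nrm)), ← hP.conc f hf]
  · have h2 := hJE (fun _ => 1) (fun l => ex (t * l)) (BM.const 1) (BM.ex (by fun_prop))
    rw [P.E_one, one_mul, hDv] at h2
    rw [POVM.map_E, ← h2]
    refine J.E_congr_of_null (O := Prod.fst ⁻¹' {0}) (measurable_fst (measurableSet_singleton 0)) ?_
      ((bm_lg t).comp measurable_pol) ((BM.const 1).mul (BM.ex (by fun_prop))) fun z hz => ?_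
    · rw [← hP.zero, ← h1 _ bm_ic0]
      rfl
    · rw [lg, norm_pol hz, Real.log_exp, one_mul]

theorem lift : LiftStmt := by
  intro K _ _ _ I L Φ hL h
  obtain ⟨T, hT0, hTc, hT⟩ := h.exists_level hL (Ultrafilter.of atTop) (Ultrafilter.of_le _)
  obtain ⟨v, h0, hadd, hn, hc, hv, hu, t₁, ht₁, hTv⟩ := h.exists_group hT0 hTc fun t => (hT t).1
  obtain ⟨sc, sc_pos, sc_mul, hsc⟩ := h.exists_sc h0 hadd hc hv hu
  obtain ⟨A, hA1, hA2, hA3, hA4⟩ := exists_lift_pvm (h.proj (ev 0)) (h.pvm _) h0 hadd hn hc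
    fun t => (hv t).2.1
  have hA : Base (Φ (ev 0)) A v := ⟨hA1, hA2, hA3, hA4⟩
  have sc1 : sc 1 = 1 := by
    have := sc_mul 1 1 one_ne_zero one_ne_zero
    rw [mul_one] at this
    exact (mul_eq_left₀ (sc_pos 1 one_ne_zero).ne').1 this.symm
  have key : ∀ x, x ≠ 0 → ∀ (g : G) (z : ℝ), ac g (ev 0) = z • x → ∀ f, BM f →
      I.U g * A.E f * I.U g⁻¹ = (I.fam A x).E fun a => f (sc z • a) := fun x hx g z hg f hf => by
    have hz : z ≠ 0 := by
      rintro rfl
      exact ac_ne_zero g (ev_ne_zero 0) (by rw [hg, zero_smul])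
    have hq : ac ((Ind.gx x)⁻¹ * g) (ev 0) = z • ev 0 := by
      rw [ac_mul, hg, ac_smul, ← ac_inv_ac (Ind.gx x) (ev 0), Ind.ac_gx hx]
    rw [Ind.fam_E, ← hA.conj_smul (S := I.U ((Ind.gx x)⁻¹ * g)) (S' := I.U ((Ind.gx x)⁻¹ * g)⁻¹)
      (sc_pos z hz) (fun f hf t => ?_) hf, uconj_conj, mul_inv_cancel_left]
    rw [uconj_mul, hsc _ z hq, uconj_eq _ (h.pre.commute (ev_ne_zero 0) hq hf), mul_smul_comm]
  have key1 : ∀ x, x ≠ 0 → ∀ g : G, ac g (ev 0) = x → ∀ f, BM f →
      I.U g * A.E f * I.U g⁻¹ = (I.fam A x).E f := fun x hx g hg f hf => by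
    simpa only [sc1, one_smul] using key x hx g 1 (by rw [hg, one_smul]) f hf
  have key0 : ∀ f, BM f → (I.fam A (ev 0)).E f = A.E f := fun f hf => by
    rw [← key1 _ (ev_ne_zero 0) 1 (ac_one _) f hf, inv_one, map_one, one_mul, mul_one]
  refine ⟨I.fam A, sc, fun x => hA1.conj _ _ (I.U.mem_unitary _).1, fun x => (hA2.conj _ _).conc,
    fun x => (hA2.conj _ _).zero, fun x hx f hf => ?_, fun x hx f hf g => ?_, sc_pos, sc_mul,
    fun x hx z hz f hf => ?_, fun x hx f hf he ν => ?_, fun S hS f hf => ?_,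
    (Ultrafilter.of atTop : Ultrafilter ℕ), inferInstance, Ultrafilter.of_le _, t₁, ht₁, fun t ht => ?_⟩
  · rw [Ind.fam_E, ← hA3 f hf, h.covU _ (ev_ne_zero 0) f hf, Ind.ac_gx hx]
  · rw [Ind.fam_E, uconj_conj, key1 _ (ac_ne_zero g hx) _ (by rw [ac_mul, Ind.ac_gx hx]) f hf]
  · rw [Ind.fam_E, key x hx _ z (Ind.ac_gx (smul_ne_zero hz hx)) f hf]
  · rw [Ind.fam_E, Ind.fam_E, ← hA.conj_ac (S := I.ρ ν) (S' := I.ρ ν⁻¹) (ι ν⁻¹)
      (fun f hf h0 t => by rw [uconj_mul, h.covρ _ (ev_ne_zero 0) f hf h0, (hv t).2.2.1]) hf he]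
    simp only [mul_assoc]
    rw [(I.Uρ _ ν⁻¹).eq, (I.Uρ _ ν).left_comm]
  · rw [key0 f hf]
    refine hA.commute (h.gen S hS) (commute_group h0 hadd ht₁ fun t ht => ?_) hf
    obtain ⟨c, hc0, e⟩ := hTv t ht
    have := (hS _ (hT t).2.1).smul_right c⁻¹
    rwa [e, inv_smul_smul₀ hc0] at this
  · obtain ⟨c, hc0, e⟩ := hTv t ht
    refine ⟨c, hc0, ?_⟩
    have := (hT t).2.2
    rw [e, ← hA4, ← key0 _ (bm_lg t)] at this
    exact this

theorem liftComm : LiftCommStmt := by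
  intro K _ _ _ I I' L Φ Ψ A sc hd hL hL' hΦ hΨ hi hA
  have e12 : ev 1 ⬝ᵥ ev 2 = 0 := by rw [ev_dot_ev]; rfl
  have e02 : ev 0 ⬝ᵥ ev 2 = 0 := by rw [ev_dot_ev]; rfl
  have covΨ : ∀ y, y ≠ 0 → ∀ h, BM h → ∀ g,
      I.U g * (Ψ y).E h * I.U g⁻¹ = (Ψ (ac (dl g) y)).E h := fun y hy h hh g => by
    rw [← hΨ.covU y hy h hh, hd.U_eq, hd.U_eq, map_inv dl, dl_dl]
  have base : ∀ t h, BM h → Commute ((Ψ (ev 2)).E h) ((A (ev 1)).E (lg t)) := fun t => by
    set v := (A (ev 1)).E (lg t) with hv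
    have hu : v ∈ unitary (K →L[ℂ] K) := hA.lg_unitary _ t
    let G' := (Ψ (ev 2)).conj (star v) (by rw [star_star]; exact hu.1)
    have hG : ∀ h, G'.E h = star v * (Ψ (ev 2)).E h * v := fun h => by
      rw [POVM.conj_E, star_star]
    have hvN : v ∈ I'.N := by rw [hd.N_eq]; exact hA.mem (ev_ne_zero 1) (bm_lg t)
    have hcov : I'.Cov G' := by
      refine ⟨(hΨ.proj _).conj _ _, fun h hh => ?_, fun h hh h0 ν => ?_⟩
      · rw [hG]
        exact Ind.mul_N (Ind.mul_N (Ind.star_N hvN) (hΨ.mem (ev_ne_zero 2) hh)) hvN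
      · have hc := bm_cz (ι (dl ν)⁻¹) t
        set c := (Φ (ev 1)).E (cz (ι (dl ν)⁻¹) t) with hc'
        have h1 : I'.ρ ν * v * I'.ρ ν⁻¹ = c * v := by
          rw [hd.ρ_eq, hd.ρ_eq, map_inv dl, hA.ρ_lg (ev_ne_zero 1)]
          exact (hA.commute_Φ (ev_ne_zero 1) (bm_lg t) hc).eq
        have hcu : c ∈ unitary (K →L[ℂ] K) := (hΦ.pvm _).ex_mem_unitary (by fun_prop)
        have h2 := (hi.comm _ _ (ev_ne_zero 1) (ev_ne_zero 2) e12 _ _ hc
          (hh.comp (measurable_ac (ι ν⁻¹)))).eq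
        rw [hG, hG, uconj_mul, uconj_mul, uconj_star, h1, hΨ.covρ _ (ev_ne_zero 2) h hh h0, star_mul,
          mul_assoc, mul_assoc, ← mul_assoc _ c, ← h2, mul_assoc, ← mul_assoc (star c), hcu.1,
          one_mul, mul_assoc]
    have inv : ∀ (q : G) (z w : ℝ), ac q (ev 1) = z • ev 1 → ac (dl q) (ev 2) = w • ev 2 →
        ∀ h, BM h → I.U q * G'.E h * I.U q⁻¹ = G'.E h := fun q z w hz hw h hh => by
      have hw0 : w ≠ 0 := by
        rintro rfl
        exact ac_ne_zero _ (ev_ne_zero 2) (by rw [hw, zero_smul])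
      rw [hG, uconj_mul, uconj_mul, uconj_star, hA.conj_lg (ev_ne_zero 1) hz, covΨ _ (ev_ne_zero 2) h hh,
        hw, hΨ.scal _ (ev_ne_zero 2) w hw0 h hh, star_smul, smul_mul_assoc, smul_mul_smul_comm,
        Complex.star_def, conj_ex, ← ex_add, neg_add_cancel, ex_zero, one_smul]
    have h02 : (0 : Fin 3) ≠ 2 := by decide
    have h10 : (1 : Fin 3) ≠ 0 := by decide
    have i0 : Inc (Φ (ev 0)) G' := hΦ.isLim.inc le_rfl hd hL hcov
      (fun h hh k => commute_of_conj _ (inv _ _ _ (ac_al_of _ (by simp [ev]))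
        (by rw [dl_al]; exact ac_al_of _ (by simp [ev])) h hh)) h02
      fun h hh b => commute_of_conj _ (inv _ 1 1 (by rw [ac_tv]; simp [ev])
        (by rw [dl_tv, ac_tv]; simp [ev]) h hh)
    have hq : ac (tv h10 1) (ev 0) = ev 0 + ev 1 := by rw [ac_tv]; simp [ev]
    have i1 : Inc (Φ (ev 0 + ev 1)) G' := i0.conj (I.U.mem_unitary (tv h10 1))
      (fun f hf => by rw [URep.star_apply, hΦ.covU _ (ev_ne_zero 0) f hf, hq])
      fun h hh => by
        rw [URep.star_apply]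
        exact inv _ 1 1 (by rw [ac_tv]; simp [ev]) (by rw [dl_tv, ac_tv]; simp [ev]) h hh
    have hx : ev 0 ⨯₃ (ev 0 + ev 1) ≠ 0 := by
      rw [map_add, cross_self, zero_add, Geo2.ev01]
      exact ev_ne_zero 2
    intro h hh
    have e := hΦ.pre.two hx (hΦ.pvm _) hcov.proj (hΨ.proj (ev 2)) i0
      (hi.inc _ _ (ev_ne_zero 0) (ev_ne_zero 2) e02) i1
      (hi.inc _ _ (hq ▸ ac_ne_zero _ (ev_ne_zero 0)) (ev_ne_zero 2)
        (by rw [add_dotProduct, e02, e12, add_zero])) hh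
    rw [hG] at e
    rw [Commute, SemiconjBy]
    conv_rhs => rw [← e, ← mul_assoc, ← mul_assoc, hu.2, one_mul]
  intro x y hx hy hxy f h hf hh
  obtain ⟨g₀, h₀, h₀'⟩ := exists_ac_flag (ev_ne_zero 1) (ev_ne_zero 2) e12
  obtain ⟨g₁, h₁, h₁'⟩ := exists_ac_flag hx hy hxy
  have e1 : ac (g₁ * g₀⁻¹) (ev 1) = x := by rw [ac_mul, ← h₀, ac_inv_ac, h₁]
  have e2 : ac (dl (g₁ * g₀⁻¹)) (ev 2) = y := by
    rw [map_mul, map_inv, ac_mul]
    conv_lhs => rw [← h₀', ac_inv_ac, h₁']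
  rw [← e1, ← e2, ← hA.covU _ (ev_ne_zero 1) f hf, ← covΨ _ (ev_ne_zero 2) h hh]
  exact commute_conj _ _ (hA.commute_of (ev_ne_zero 1)
    (fun g hg => (hi.comm _ _ (ev_ne_zero 1) (ev_ne_zero 2) e12 g h hg hh).symm)
    (fun t => base t h hh) hf).symm

end Crest.Agent.N111
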